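import Vale.Agent.P283B.AllL

/-!
# P283: the threshold of the maximal ideal of a point of the base, for arbitrary coefficients
-/

open Set
open Vale.Agent.P297Z

noncomputable section

namespace Vale.Agent.N283

open P287D P283B P283B.Lr P283B.Lcb P283B.Ls P287D.Cb P283B.Asm

theorem ptf (n : ℕ) : PTF Grf n :=
  Lr.sgf n fun m _ => Lr.sprod Lr.tor m (Lr.scone Lr.tor (m + 1) (core_nad Bq.nad (m + 1)))

/-- a function on the base which vanishes at the point and has a large threshold -/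
theorem ll0 (n : ℕ) (ε : ℝ) (e0 : 0 < ε) : ∃ k : ℕ, 0 < k ∧
    ForN n fun K _ _ => ∀ (Λ Γ : BD K) (s₀ : Finset K) (R₀ : Pl K), Rel n Λ s₀ Γ →
      ¬ Hor (fld (mx s₀)) R₀ → ELc n ε Γ (Ov s₀ R₀) →
      ∃ h ∈ fld (mx s₀), h ≠ 0 ∧ 0 < R₀.ord h ∧
        ∀ P, Ov s₀ R₀ P → 0 ≤ P.ord h ∧ (P.ord h : ℝ) ≤ k * ld (n + 1) Γ P := by
  have hL := (packAll n).lc
  have hP := ptf n
  classical
  obtain ⟨p, hp⟩ := exists_nat_gt (max 2 (2 / ε))
  have p2 : (2 : ℝ) < p := (le_max_left _ _).trans_lt hp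
  have p1 : (0 : ℝ) < p := two_pos.trans p2
  have p0 : 0 < p := Nat.cast_pos.1 p1
  have p3 : (0 : ℝ) < (p : ℝ)⁻¹ := inv_pos.2 p1
  have p4 : (p : ℝ)⁻¹ ≤ 1 / 2 := one_div (2 : ℝ) ▸ inv_anti₀ two_pos p2.le
  have p5 : 2 * (p : ℝ)⁻¹ < ε := by
    rw [← div_eq_mul_inv, div_lt_comm₀ p1 e0]
    exact (le_max_right _ _).trans_lt hp
  obtain ⟨N₁, N1, h1⟩ := hP _ p p3 p0
  obtain ⟨N₂, N2, h2⟩ := hL p p0
  have N0 := Nat.mul_pos N1 N2
  obtain ⟨M, M0, h3⟩ := hL _ N0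
  have k0 := Nat.mul_pos N0 M0
  refine ⟨_, k0, fun K _ _ hK Λ Γ s R₀ r nh el => ?_⟩
  obtain ⟨J, hJ⟩ := exists_mz hK nh
  obtain ⟨u, u1, u2, u3, u4⟩ := exists_grf hK s R₀
  have cΩ := fun c : ℝ => add_mem r.pr.des.car (Submodule.smul_mem _ c (neg_mem (mx_mem_Car J)))
  obtain ⟨c, T, c0, hT, pT, z, lc⟩ := thr hK r.pr.des.car (neg_mem (mx_mem_Car J)) p3.le
    (p4.trans (by norm_num)) (fun P => hJ.nn) hJ.pos (fun P o => by linarith [el P o])
    fun P o _ => by linarith [el P o]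
  obtain ⟨c₀, n0⟩ := r.nef
  have bd : ∀ P, Ov s R₀ P → On n Λ P → ld (n + 1) (Γ + c • -mx J) P ≤ 1 := fun P x y => by
    rw [ld_add, ld]
    linarith [r.pr.bdy P y, mul_nonneg c0.le (hJ.nn x)]
  obtain ⟨Λ', Γ', s', e, r', du, ov, cf', le, d, bg⟩ := mm (c := c₀) (C := {0, 1 - (p : ℝ)⁻¹})
    (b := fun P => if P = T then 1 - (p : ℝ)⁻¹ else 0) hK r.ft (mx_nonneg u1)
    (fun P o => mx_zero_of u1 fun a x => u2 a x P o) (cΩ c) (by
      convert n0.add ((nef_mx J).smul c0.le) using 1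
      module) (fun P o => p3.le.trans (lc P o)) bd (z.trans_le p4) hT (by
      rintro _ (rfl | rfl)
      exacts [⟨le_rfl, 0, by simp⟩, ⟨by linarith, 1 - (p : ℚ)⁻¹, by simp⟩]) (.inl rfl)
    (fun P x y => by
      split_ifs with e
      · subst e
        exact ⟨.inr rfl, by simp only [ld, dsc, Pi.sub_apply] at z; linarith⟩
      · have := y.elim (fun y => bd P x (y.resolve_right e)) Eq.le
        exact ⟨.inl rfl, by simp only [ld, dsc, Pi.sub_apply] at this; linarith⟩)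
    fun P e => .inl (if_neg e)
  have gr : Grf K s' R₀ := ⟨u, du, u3, fun h x => u4 h fun Q y => x Q (ov ▸ y)⟩
  rw [← ov] at hJ cf' le lc hT
  obtain ⟨r₂, on⟩ := amp hK r' d (bg (fun P e => if_neg e) (hJ.nh hK pT))
  have el' : ELc n (p : ℝ)⁻¹ Γ' (Ov s' R₀) := fun P x =>
    (lc P x).trans (add_le_add_left (sub_le_sub_left (le P x).1 _) 1)
  obtain ⟨g, hg⟩ := h2 K hK _ Γ' s' R₀ r₂ (fun P x y => by
    rcases cf' P (on P x) y with a | a <;> rw [a]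
    exacts [phi_zero p0, ⟨1, 1, p0, one_pos, by simp⟩]) fun P x => p3.le.trans (el' P x)
  obtain ⟨g, hg⟩ := lcc_dvd hg (dvd_mul_left N₂ N₁)
  obtain ⟨g, τ, t0, sc, lg⟩ := cpl hK r₂ hJ N0 hg fun S o x => by
    have w := hJ.ov hK o x
    refine w ▸ (h1 K hK _ Γ' s' S e r₂ (.refl d.smp) (gr.of hK r₂.pr.big d o (hJ.cle hK o x))
      (hJ.nh hK x) (w ▸ fun P x y => ?_) (w ▸ el')).dvd (dvd_mul_right N₁ N₂) N0
    rcases cf' P (on P x) y with a | a <;> rw [a]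
    exacts [⟨0, by simp⟩, ⟨p - 1, by push_cast; field_simp⟩]
  have b1 := bnd hK r₂ hJ N0 M0 (fun a b s => h3 K hK a b s R₀) t0 sc lg hT
  have b2 : ld (n + 1) Γ' T ≤ (p : ℝ)⁻¹ := by
    have := (le T hT).2 (.inr rfl)
    simp only [ld, dsc, Pi.sub_apply, if_pos] at this ⊢
    linarith
  rw [ov] at hJ lc hT
  rw [← Nat.cast_mul] at b1
  generalize N₁ * N₂ * M = k at k0 b1
  have k1 : (0 : ℝ) < k := Nat.cast_pos.2 k0
  have b3 : (k : ℝ)⁻¹ ≤ c := by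
    rw [ld_add] at z
    have a := mul_le_mul_of_nonneg_left (b1.trans (mul_le_mul_of_nonneg_left b2 k1.le)) c0.le
    rw [inv_le_iff_one_le_mul₀ k1]
    refine le_of_mul_le_mul_right ?_ p3
    linarith [el T hT]
  obtain ⟨f, m, f0, b⟩ := ber (s := s) (R₀ := R₀) hK r.pr.smp r.pr.big r.pr.des.car hJ.nz
    (inv_pos.2 k1).le (inv_le_one_of_one_le₀ (Nat.one_le_cast.2 k0)) fun P o => by
      have := lc P o
      rw [ld_add] at this ⊢
      linarith [mul_le_mul_of_nonneg_right b3 (hJ.nn o)]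
  have w : f ∈ Oz s R₀ ∧ Mx R₀ f := by
    clear b f0
    induction m using Submodule.span_induction with
    | mem x hx => exact ⟨(hJ.mem x hx).2.1, mx_iff.2 (.inr (hJ.mem x hx).2.2)⟩
    | zero => exact ⟨zero_mem _, mx_zero⟩
    | add x y _ _ u v => exact ⟨add_mem u.1 v.1, u.2.add v.2⟩
    | smul c x _ u =>
      exact ⟨Subalgebra.smul_mem _ u.1 c, Algebra.smul_def c x ▸ u.2.mul (R₀.con c)⟩
  refine ⟨f, Sl.oz_le hK w.1, f0, (mx_iff.1 w.2).resolve_left f0, fun P o =>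
    ⟨Pl.ord_nonneg_of_mem _ (w.1 P o), (inv_mul_le_iff₀ k1).1 (sub_nonneg.1 ?_)⟩⟩
  exact (b P o).trans_eq (ld_add _ _ _ _)

end Vale.Agent.N283
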